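import Vale.Agent.P050.H177.Gauge19

namespace Vale.Agent.Results.P050.HypercontractiveHosts

open Finset Vale.Agent.P050 Vale.Agent.P050.Lev Vale.Agent.P050.H148 Vale.Agent.P050.H177

/-- Two-sided kernels `W ≥ 0` on a finite set with probability weights `m false`, `m true`; `H` is
a finite graph with a proper 2-colouring, with `a`, `b` vertices of the two colours and `e` edges.
In (1), (3)-(6) all degrees of the colour `false` are `r ≥ 2` and all degrees of the colour `true`
are `s ≥ 2`.
(1) For every kernel `W` with mean `p > 0` there is a kernel `W'`, doubly stochastic and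
hypercontractive (`NiceHost r s`), supported in the support of `W`, such that
`p ^ e(H) * t(H, W') ≤ t(H, W)` for all such `H`. (2) The square of the second singular value of a
kernel `NiceHost r s` is at most `1 / ((r - 1) (s - 1))`. (3) For every such `H` and every finite
set there is a kernel `W` on this set, with `NiceHost r s`, with second singular value at most
`√((a - 1) (b - 1) / ((e - a) (e - b)))`, and for which the mean over the edges of `H` of the law of
the image of an edge under a random map (`gibbs`) is the law with density `W`, that minimises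
`t(H, W₁) / p(W₁) ^ e(H)` among all kernels `W₁` on this set. (4) Hence `H` satisfies the two-sided
Sidorenko inequality if and only if `1 ≤ t(H, W)` for all such kernels `W`. (5) In this case it
satisfies Sidorenko's inequality for all graphs. (6) The case of `K_{5,5}` minus a cycle of
length 10, where the second singular value is at most `2 / 5`.
(7) For every `H` with `e > a` and `e > b` the two-sided Sidorenko inequality holds if and only
if `t(H, W) ≥ 1` for all kernels `W` with `NiceHost (e / a) (e / b)` and all positive potentials; and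
if and only if, for all families of kernels `K e`, one for each edge `e` of `H`, the homomorphism
density of `H`, with the kernel `K e` at the edge `e`, is at least the `e(H)`-th power of the norm of
the geometric mean of the kernels `K e` as an operator from `L ^ (e / (e - a))` to the dual of
`L ^ (e / (e - b))`. -/
theorem result :
    (∀ r s : ℕ, 2 ≤ r → 2 ≤ s → ∀ (U : Type) [Fintype U] (m : Bool → U → ℝ) (W : U → U → ℝ),
      (∀ b x, 0 ≤ m b x) → (∀ b, ∑ x, m b x = 1) → (∀ x y, 0 ≤ W x y) → 0 < kmean m W →
      ∃ (m' : Bool → U → ℝ) (W' : U → U → ℝ), NiceHost r s m' W' ∧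
        (∀ x y, m' false x * m' true y * W' x y ≠ 0 → m false x * m true y * W x y ≠ 0) ∧
        ∀ (V : Type) [Fintype V] [DecidableEq V] (H : SimpleGraph V) (side : V → Bool),
          Bireg H side r s → kmean m W ^ Nat.card H.edgeSet *
            kdens (sideEdges H side) side m' W' ≤ kdens (sideEdges H side) side m W) ∧
    (∀ r s : ℝ, 1 < r → 1 < s → ∀ (U : Type) [Fintype U] (m : Bool → U → ℝ) (W : U → U → ℝ),
      NiceHost r s m W → CorrLe (1 / ((r - 1) * (s - 1))) m W) ∧
    (∀ r s : ℕ, 2 ≤ r → 2 ≤ s → ∀ (V : Type) [Fintype V] [DecidableEq V] [Nonempty V]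
      (H : SimpleGraph V) (side : V → Bool), Bireg H side r s →
      ∀ (U : Type) [Fintype U] [Nonempty U], ∃ (m : Bool → U → ℝ) (W : U → U → ℝ),
        NiceHost r s m W ∧ CorrLe (corrBound H side) m W ∧
        (∀ φ : U → U → ℝ, ∑ z, gibbs (sideEdges H side) side m W z *
            ∑ e ∈ sideEdges H side, φ (z e.1) (z e.2) =
          Nat.card H.edgeSet * ∑ x, ∑ y, m false x * m true y * W x y * φ x y) ∧
        ∀ (m₁ : Bool → U → ℝ) (W₁ : U → U → ℝ), (∀ b x, 0 ≤ m₁ b x) → (∀ b, ∑ x, m₁ b x = 1) →
          (∀ x y, 0 ≤ W₁ x y) → kmean m₁ W₁ ^ Nat.card H.edgeSet *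
            kdens (sideEdges H side) side m W ≤ kdens (sideEdges H side) side m₁ W₁) ∧
    (∀ r s : ℕ, 2 ≤ r → 2 ≤ s → ∀ (V : Type) [Fintype V] [DecidableEq V] (H : SimpleGraph V)
      (side : V → Bool), Bireg H side r s →
      (GSid H side ↔ ∀ (U : Type) [Fintype U] (m : Bool → U → ℝ) (W : U → U → ℝ),
        NiceHost r s m W → CorrLe (corrBound H side) m W →
        1 ≤ kdens (sideEdges H side) side m W)) ∧
    (∀ r s : ℕ, 2 ≤ r → 2 ≤ s → ∀ (V : Type) [Fintype V] [DecidableEq V] (H : SimpleGraph V)
      (side : V → Bool), Bireg H side r s →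
      (∀ (U : Type) [Fintype U] (m : Bool → U → ℝ) (W : U → U → ℝ),
        NiceHost r s m W → CorrLe (corrBound H side) m W →
        1 ≤ kdens (sideEdges H side) side m W) →
      ∀ (U : Type) [Finite U] [Nonempty U] (G : SimpleGraph U),
        edgeDensity G ^ Nat.card H.edgeSet ≤ homDensity H G) ∧
    ((∀ (U : Type) [Fintype U] (m : Bool → U → ℝ) (W : U → U → ℝ),
        NiceHost 3 3 m W → CorrLe (4 / 25) m W →
        1 ≤ kdens (sideEdges K55minusC10 par10) par10 m W) →
      ∀ (U : Type) [Finite U] [Nonempty U] (G : SimpleGraph U),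
        edgeDensity G ^ 15 ≤ homDensity K55minusC10 G) ∧
    (∀ (V : Type) [Fintype V] [DecidableEq V] (H : SimpleGraph V) (side : V → Bool),
      (∀ u v, H.Adj u v → side u ≠ side v) →
      (∀ b, Nat.card {v // side v = b} < Nat.card H.edgeSet) →
      (GSid H side ↔ ∀ (U : Type) [Fintype U] (m : Bool → U → ℝ) (W : U → U → ℝ)
        (u : Bool → U → ℝ), NiceHost (Nat.card H.edgeSet / Nat.card {v // side v = false})
          (Nat.card H.edgeSet / Nat.card {v // side v = true}) m W → (∀ b x, 0 < u b x) →
          1 ≤ potDens H side (Nat.card H.edgeSet / Nat.card {v // side v = false})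
            (Nat.card H.edgeSet / Nat.card {v // side v = true}) m W u) ∧
      (GSid H side ↔ ∀ (U : Type) [Fintype U] (m : Bool → U → ℝ) (K : V × V → U → U → ℝ),
        (∀ b x, 0 ≤ m b x) → (∀ b, ∑ x, m b x = 1) → (∀ e x y, 0 ≤ K e x y) →
        ∀ f g : U → ℝ, (∀ x, 0 ≤ f x) → (∀ y, 0 ≤ g y) →
        (∑ x, ∑ y, m false x * m true y * edgeMean H side K x y * (f x * g y)) ^
            Nat.card H.edgeSet ≤
          (∑ z : V → U, (∏ v, m (side v) (z v)) *
            ∏ e ∈ sideEdges H side, K e (z e.1) (z e.2)) *
            ((∑ x, m false x * f x ^ ((Nat.card H.edgeSet : ℝ) / (Nat.card H.edgeSet -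
                Nat.card {v // side v = false}))) ^
              (Nat.card H.edgeSet - Nat.card {v // side v = false}) *
            (∑ y, m true y * g y ^ ((Nat.card H.edgeSet : ℝ) / (Nat.card H.edgeSet -
                Nat.card {v // side v = true}))) ^
              (Nat.card H.edgeSet - Nat.card {v // side v = true})))) := by
  refine ⟨?_, ?_, ?_, ?_, ?_, ?_, ?_⟩
  · intro r s hr hs U _ m W hm hm1 hW hk
    obtain ⟨m', W', h1, h2, h3, h4, h5, h6, h7, h8⟩ := gauge hr hs hm hm1 hW hk
    refine ⟨m', W', ⟨h1, h2, h3, h4, h5, h6⟩, h7, fun V _ _ H side hH => ?_⟩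
    have h9 := h8 V (sideEdges H side) side hH.edges
    rwa [card_sideEdges H side hH.1] at h9
  · intro r s hr hs U _ m W h
    exact h.corrLe hr hs
  · intro r s hr hs V _ _ _ H side hH U _ _
    exact exists_minimiser' hH hr hs inferInstance
  · intro r s hr hs V _ _ H side hH
    exact gsid_iff' hH hr hs
  · intro r s hr hs V _ _ H side hH h U _ _ G
    exact sidorenko_of_gsid ((gsid_iff' hH hr hs).2 h) G
  · intro h U _ _ G
    have h1 : GSid K55minusC10 par10 := (gsid_iff' bireg10 (le_refl 2 |>.trans (by norm_num))
      (le_refl 2 |>.trans (by norm_num))).2 fun U _ m W hh hc => h U m W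
        (by have := hh; unfold HyperHost at this; unfold NiceHost; exact_mod_cast this) (by
        rwa [corrBound10] at hc)
    have h2 := sidorenko_of_gsid h1 G
    rwa [card_edges10] at h2
  · intro V _ _ H side h hlt
    exact ⟨gsid_iff_pot h hlt, gsid_iff_edges h hlt⟩

end Vale.Agent.Results.P050.HypercontractiveHosts
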