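import Vale.Agent.P050.H223.LiftStmt

namespace Vale.Agent.Results.P050.LiftedTargets

open Vale.Agent.P050.H223.Lift

/-- Lifts of targets: (1) by positive definite functions on finite groups depending on the point;
(2) by increasing functions on finite distributive lattices; (3) positive definite kernels;
(4) lifts of kernels by subgroups, incidence with subgroups, Heisenberg targets, homomorphisms;
(5) lifts of graphs by subgroups and by up-sets; (6) the commuting relation of a finite group;
(7) bipartite targets, points and flats of finite affine spaces. -/
theorem result : Part1 ∧ Part2 ∧ Part3 ∧ Part4 ∧ Part5 ∧ Part6 ∧ Part7 :=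
  ⟨part1, part2, part3, part4, part5, part6, part7⟩

end Vale.Agent.Results.P050.LiftedTargets
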