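import Vale.Agent.P050.H180.Graph
import Vale.Agent.P050.H180.Graph2
import Vale.Agent.P050.H180.Glue2
import Vale.Agent.P050.H180.Twist5
import Vale.Agent.P050.H180.Ent5
import Vale.Agent.P050.H173.OneGraph
import Vale.Agent.P050.H173.VertGraph
import Vale.Agent.P050.H223.Dbl5
import Vale.Agent.P050.H180.Sharp

namespace Vale.Agent.Results.P050.LongLadders

open Vale.Agent.P050 Vale.Agent.P050.H148 Vale.Agent.P050.H180 Vale.Agent.P050.H173
  Vale.Agent.P050.H223

/-- **Moebius ladders.** `moebiusLadder k` has `2 k` vertices and `3 k` edges for `k ≥ 3`; it is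
the Moebius ladder for odd `k`. For every finite graph `G`, `p` being its edge density:
(1) `t ≥ p ^ (3 k)` for the Moebius ladder, `k` odd, if `k ≥ 5` and `p ^ 4 ≥ 2 / 15`, or `k ≥ 7` and
`p ≥ 9 / 20`, or `k ≥ 9` and `2 ^ k p ^ 4 ≥ 6`; (2) the same for weighted graphs with values in
`[0, 1]`; (3) in particular for `K_{5,5}` minus a cycle of length 10 if `p ^ 4 ≥ 2 / 15`;
(4) for odd `k ≥ 5`, `t(C_4) ^ (2 k + 1) ≤ p ^ (2 k + 2) t(moebiusLadder k) ^ 2` and so
`t(moebiusLadder k) ≥ p ^ (3 k + 1)`, for all graphs;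
(5) for `k = 2 m + 1` and `1 ≤ j ≤ m`, `P` being the prism
over a cycle of length `2 j` (`C_4` if `j = 1`) and `N = k (m + 1 - j) + 4 j`,
`t(C_4) ^ N ≤ p ^ N t(moebiusLadder k) ^ (m + 1 - j) t(P) ^ 2`; (6) in particular
(`j = 1`) `t(moebiusLadder k) ^ m ≥ p ^ (3 m k + 4)` for all graphs; (7) for `j ≥ 2` the graph formed
by `c` copies of the Moebius ladder and one copy of `P` satisfies Sidorenko's inequality if
`1 ≤ c` and `2 c + j ≤ m + 1`;
(8) the Moebius ladder with one vertex doubled (`k ≥ 11` odd), (9) with one rung doubled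
(`k ≥ 7` odd), and (10) with two rungs at distance two doubled or with one rung tripled
(`k ≥ 5` odd) satisfies Sidorenko's inequality;
(11) for odd `k ≥ 5` the connected graph `wingedLadder k` with `6 k - 8` vertices and
`9 k - 8` edges, in which the Moebius ladder and two prisms over a cycle of length `k - 1` have one
rung in common, satisfies Sidorenko's inequality;
(12) for every finite graph `F`, given on `A ⊕ Bool ⊕ B`, with an edge between the two vertices in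
`Bool`, and `j ≥ 2`:
`t(F) ^ (4 j - 2) ≤ t(F[A]) ^ (3 j - 3) t(twisted F) ^ (j - 1) t(multi F j) ^ 2`. -/
theorem result :
    (∀ (X : Type) [Fintype X] [Nonempty X] (G : SimpleGraph X) (k : ℕ), Odd k →
      (5 ≤ k ∧ 2 / 15 ≤ edgeDensity G ^ 4) ∨ (7 ≤ k ∧ 9 / 20 ≤ edgeDensity G) ∨
        (9 ≤ k ∧ 6 ≤ 2 ^ k * edgeDensity G ^ 4) →
      edgeDensity G ^ (3 * k) ≤ homDensity (moebiusLadder k) G) ∧
    (∀ (X : Type) [Fintype X] [Nonempty X] (W : X → X → ℝ) (p : ℝ) (k : ℕ) [NeZero k],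
      (∀ x y, W x y = W y x) → (∀ x y, 0 ≤ W x y) → (∀ x y, W x y ≤ 1) →
      (∑ x, ∑ y, W x y) / (Fintype.card X : ℝ) ^ 2 = p → 0 < p → Odd k →
      (5 ≤ k ∧ 2 / 15 ≤ p ^ 4) ∨ (7 ≤ k ∧ 9 / 20 ≤ p) ∨ (9 ≤ k ∧ 6 ≤ 2 ^ k * p ^ 4) →
      p ^ (3 * k) ≤ ladderDensity W k) ∧
    (∀ (X : Type) [Fintype X] [Nonempty X] (G : SimpleGraph X), 2 / 15 ≤ edgeDensity G ^ 4 →
      edgeDensity G ^ 15 ≤ homDensity K55minusC10 G) ∧
    (∀ (X : Type) [Fintype X] [Nonempty X] (G : SimpleGraph X) (k : ℕ), Odd k → 5 ≤ k →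
      homDensity (SimpleGraph.cycleGraph 4) G ^ (2 * k + 1) ≤
        edgeDensity G ^ (2 * k + 2) * homDensity (moebiusLadder k) G ^ 2 ∧
      edgeDensity G ^ (3 * k + 1) ≤ homDensity (moebiusLadder k) G) ∧
    (∀ (X : Type) [Fintype X] [Nonempty X] (G : SimpleGraph X) (j m : ℕ), 1 ≤ j → j ≤ m →
      homDensity (SimpleGraph.cycleGraph 4) G ^ ((2 * m + 1) * (m + 1 - j) + 4 * j) ≤
        edgeDensity G ^ ((2 * m + 1) * (m + 1 - j) + 4 * j) *
          (homDensity (moebiusLadder (2 * m + 1)) G ^ (m + 1 - j) *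
          homDensity ((SimpleGraph.cycleGraph (2 * j)).boxProd (⊤ : SimpleGraph Bool)) G ^ 2)) ∧
    (∀ (X : Type) [Fintype X] [Nonempty X] (G : SimpleGraph X) (m : ℕ), 1 ≤ m →
      edgeDensity G ^ (3 * m * (2 * m + 1) + 4) ≤
        homDensity (moebiusLadder (2 * m + 1)) G ^ m) ∧
    (∀ (X : Type) [Fintype X] [Nonempty X] (G : SimpleGraph X) (c j m : ℕ), 1 ≤ c → 1 ≤ j →
      2 * c + j ≤ m + 1 →
      edgeDensity G ^ (3 * (2 * m + 1) * c + 6 * j) ≤
        homDensity (moebiusLadder (2 * m + 1)) G ^ c *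
          homDensity ((SimpleGraph.cycleGraph (2 * j)).boxProd (⊤ : SimpleGraph Bool)) G) ∧
    (∀ (X : Type) [Fintype X] [Nonempty X] (G : SimpleGraph X) (k : ℕ), Odd k → 11 ≤ k →
      homDensity (SimpleGraph.cycleGraph 4) G ^ (k + 1) ≤
        edgeDensity G ^ (k + 1) * homDensity (vertexDoubled k) G ∧
      edgeDensity G ^ (3 * k + 3) ≤ homDensity (vertexDoubled k) G) ∧
    (∀ (X : Type) [Fintype X] [Nonempty X] (G : SimpleGraph X) (k : ℕ), Odd k → 7 ≤ k →
      homDensity (SimpleGraph.cycleGraph 4) G ^ (k + 2) ≤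
        edgeDensity G ^ (k + 3) * homDensity (oneDoubled k) G ∧
      edgeDensity G ^ (3 * k + 5) ≤ homDensity (oneDoubled k) G) ∧
    (∀ (X : Type) [Fintype X] [Nonempty X] (G : SimpleGraph X) (k : ℕ), Odd k → 5 ≤ k →
      homDensity (SimpleGraph.cycleGraph 4) G ^ (k + 3) ≤
        edgeDensity G ^ (k + 2) * homDensity (doubledLadder k) G ∧
      homDensity (doubledLadder k) G ≤ homDensity (tripledLadder k) G ∧
      edgeDensity G ^ (3 * k + 10) ≤ homDensity (doubledLadder k) G) ∧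
    (∀ (X : Type) [Fintype X] [Nonempty X] (G : SimpleGraph X) (k : ℕ), Odd k → 5 ≤ k →
      edgeDensity G ^ (9 * k - 8) ≤ homDensity (wingedLadder k) G) ∧
    (∀ (X A B : Type) [Fintype X] [Nonempty X] [Fintype A] [Fintype B] (G : SimpleGraph X)
      (F : SimpleGraph (A ⊕ Bool ⊕ B)) (j : ℕ),
      F.Adj (Sum.inr (Sum.inl false)) (Sum.inr (Sum.inl true)) → 2 ≤ j →
      homDensity F G ^ (4 * j - 2) ≤ homDensity (F.comap Sum.inl) G ^ (3 * j - 3) *
        homDensity (twisted F) G ^ (j - 1) * homDensity (multi F j) G ^ 2) :=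
  ⟨fun _ _ _ G k hk h => Vale.Agent.P050.H180.graph G k hk h,
    fun _ _ _ W _ k _ hs h0 h1 hp hp0 hk h =>
      Vale.Agent.P050.H180.weighted W hs h0 h1 hp0 hp k hk h,
    fun _ _ _ G h => Vale.Agent.P050.H180.graph5 G h,
    fun _ _ _ G k hk h5 => sharp_graph G k hk h5,
    fun _ _ _ G j m hj hjm => Vale.Agent.P050.H180.fam_graph G j m hj hjm,
    fun _ _ _ G m hm => Vale.Agent.P050.H180.near2 G m hm,
    fun _ _ _ G c j m hc hj h => Vale.Agent.P050.H180.mixed_graph G c j m hj h hc,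
    fun _ _ _ G k hk h11 => ⟨vert_graph G k hk h11, vert_sidorenko G k hk h11⟩,
    fun _ _ _ G k hk h7 => ⟨one_graph G k hk h7, one_sidorenko G k hk h7⟩,
    fun _ _ _ G k hk h5 => ⟨(Dbl.double_graph G k hk h5).1, (Dbl.double_graph G k hk h5).2,
      (Dbl.double_sidorenko G k hk h5).1⟩,
    fun _ _ _ G k hk h5 => Vale.Agent.P050.H180.winged_graph G k hk (by omega),
    fun _ _ _ _ _ _ _ G F j hz hj => multi_density F hz G j hj⟩

end Vale.Agent.Results.P050.LongLadders
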