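import Vale.Agent.P050.H177.Main
import Vale.Agent.P050.H177.Att13

namespace Vale.Agent.Results.P050.NetSubstitution

open Finset Vale.Agent.P050 Vale.Agent.P050.Lev Vale.Agent.P050.Tmpl Vale.Agent.P050.H177

/-- (1) Let the 2-coloured graph `(G, t)` satisfy the two-sided Sidorenko inequality, let it have at
least one edge and at most as many vertices of each colour as edges. Let `H₀`, with the proper
2-colouring `s₀`, be a net with the stars `C₀` and the separations `M₀`. Let `K` be a set of vertices
of `H₀` and `τ` a division of the others into two parts, such that the part `τ = true` is thin over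
`K`, or `τ` agrees with the colouring. Let `H`, with the proper 2-colouring `s`, be obtained from the
substitution `relSub G t H₀ τ K` by adding isolated vertices, leaves and copies; it may start with
the lifts of the stars and separations of `H₀` along the edges of `G`. Then `H` satisfies the
two-sided Sidorenko inequality, hence the Sidorenko inequality for all finite graphs.
(2) Let `F`, with the 2-colouring `s`, and `K`, with the 2-colouring `t`, be graphs without isolated
vertices that satisfy the two-sided Sidorenko inequality, let `K` have more edges than vertices of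
each colour. The vertices of `F` are the elements of `A`, two marked vertices `false`, `true` and the
elements of `P`; the vertices in `A` and the two marked vertices together induce a forest. The graph
`joins F K t φ` has the vertices of `K` and, for each `j` in `J`, a copy of `F` whose marked vertices
`false`, `true` are the ends, of the colours `false`, `true`, of the edge `φ j` of `K` (`φ` is
arbitrary, so there may be several copies or no copy at an edge), all copies having the vertices in
`A` in common; a vertex in `A` adjacent to the marked vertex `b` is joined to all vertices of `K` of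
the colour `b`; the edges of `K` are kept if the marked vertices are adjacent, and deleted otherwise.
In the latter case let `F` have more edges than vertices of each colour, and let every vertex of `K`
be an end of one of the edges `φ j`. If there are at least as many copies as edges of `K`, then
`joins F K t φ` satisfies the two-sided Sidorenko inequality, hence the Sidorenko inequality for all
finite graphs.
(3) Let `F` be as in (2), with non-adjacent marked vertices, and let `B` be an arbitrary bipartite
graph without isolated vertices with at least two vertices of each colour. If the edges of `B` are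
replaced by copies of `F` in this way, at least one for each edge, and in all at least as many as
there are pairs of vertices of `B` of different colours, then the resulting graph satisfies the
two-sided Sidorenko inequality, hence the Sidorenko inequality for all finite graphs. -/
theorem result :
    (∀ (VG V₀ V : Type) [Fintype VG] [DecidableEq VG] [Fintype V₀] [DecidableEq V₀] [Fintype V]
      [DecidableEq V] (G : SimpleGraph VG) (t : VG → Bool) (H₀ : SimpleGraph V₀) (s₀ : V₀ → Bool)
      (C₀ : V₀ → Finset V₀ → Prop) (M₀ : V₀ → Finset V₀ → Finset V₀ → Prop) (K : Finset V₀)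
      (τ : V₀ → Bool) (H : SimpleGraph V) (s : V → Bool) (f : RV t τ K → V)
      (C : V → Finset V → Prop) (M : V → Finset V → Finset V → Prop),
      GSid G t → (∃ u v, G.Adj u v) →
      (∀ b, (univ.filter fun p => t p = b).card ≤ Nat.card G.edgeSet) →
      (∀ u v, H₀.Adj u v → s₀ u ≠ s₀ v) → Net H₀ univ C₀ M₀ →
      (Thin H₀ K (univ.filter fun v => v ∉ K ∧ τ v = true) ∨ ∀ v ∉ K, τ v = s₀ v) →
      (∀ u v, H.Adj u v → s u ≠ s v) → Function.Injective f →
      (∀ a b, H.Adj (f a) (f b) ↔ (relSub G t H₀ τ K).Adj a b) →
      (∀ a, s (f a) = subSide s₀ t τ K a) →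
      NetExt H (univ.image f)
        (fun v B => ∃ a A, LiftStar G t τ K C₀ a A ∧ v = f a ∧ B = A.image f)
        (fun v A B => ∃ a A' B', LiftSep G t τ K M₀ a A' B' ∧ v = f a ∧ A = A'.image f ∧
          B = B'.image f) univ C M →
      GSid H s ∧ ∀ (U : Type) [Finite U] [Nonempty U] (X : SimpleGraph U),
        edgeDensity X ^ Nat.card H.edgeSet ≤ homDensity H X) ∧
    (∀ (A P VK J : Type) [Fintype A] [Fintype P] [Fintype VK] [Fintype J] [DecidableEq A]
      [DecidableEq P] [DecidableEq VK] [DecidableEq J] (F : SimpleGraph (A ⊕ (Bool ⊕ P)))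
      (s : A ⊕ (Bool ⊕ P) → Bool) (K : SimpleGraph VK) (t : VK → Bool) (φ : J → VK × VK),
      GSid F s → GSid K t → (∀ v, ∃ w, F.Adj v w) → (∀ v, ∃ w, K.Adj v w) →
      (∀ b, Nat.card {v // t v = b} < Nat.card K.edgeSet) →
      (F.comap (Sum.map id Sum.inl : A ⊕ Bool → A ⊕ (Bool ⊕ P))).IsAcyclic →
      (∀ j, K.Adj (φ j).1 (φ j).2 ∧ t (φ j).1 = false) → Nat.card K.edgeSet ≤ Nat.card J →
      (F.Adj (Sum.inr (Sum.inl false)) (Sum.inr (Sum.inl true)) ∨
        ((∀ b, Nat.card {v // s v = b} < Nat.card F.edgeSet) ∧
          ∀ k, ∃ j, (φ j).1 = k ∨ (φ j).2 = k)) →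
      GSid (joins F K t φ) (joinSide s t) ∧
        ∀ (U : Type) [Finite U] [Nonempty U] (X : SimpleGraph U),
          edgeDensity X ^ Nat.card (joins F K t φ).edgeSet ≤ homDensity (joins F K t φ) X) ∧
    (∀ (A P VB J : Type) [Fintype A] [Fintype P] [Fintype VB] [Fintype J] [DecidableEq A]
      [DecidableEq P] [DecidableEq VB] [DecidableEq J] (F : SimpleGraph (A ⊕ (Bool ⊕ P)))
      (s : A ⊕ (Bool ⊕ P) → Bool) (B : SimpleGraph VB) (t : VB → Bool) (φ : J → VB × VB),
      GSid F s → (∀ v, ∃ w, F.Adj v w) → (∀ b, Nat.card {v // s v = b} < Nat.card F.edgeSet) →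
      ¬ F.Adj (Sum.inr (Sum.inl false)) (Sum.inr (Sum.inl true)) →
      (F.comap (Sum.map id Sum.inl : A ⊕ Bool → A ⊕ (Bool ⊕ P))).IsAcyclic →
      (∀ u v, B.Adj u v → t u ≠ t v) → (∀ v, ∃ w, B.Adj v w) →
      (∀ b, 2 ≤ Nat.card {v // t v = b}) →
      (∀ j, B.Adj (φ j).1 (φ j).2 ∧ t (φ j).1 = false) →
      (∀ u v, B.Adj u v → t u = false → ∃ j, φ j = (u, v)) →
      Nat.card {v // t v = false} * Nat.card {v // t v = true} ≤ Nat.card J →
      GSid (joins F B t φ) (joinSide s t) ∧
        ∀ (U : Type) [Finite U] [Nonempty U] (X : SimpleGraph U),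
          edgeDensity X ^ Nat.card (joins F B t φ).edgeSet ≤ homDensity (joins F B t φ) X) := by
  refine ⟨?_, ?_, ?_⟩
  · intro VG V₀ V _ _ _ _ _ _ G t H₀ s₀ C₀ M₀ K τ H s f C M hG he hc hs₀ hH₀ hK hs hf hadj hside hC
    have h := sub_gsid hG he hc hs₀ hH₀ K τ hK hs hf hadj hside hC
    exact ⟨h, fun _ _ _ X => sidorenko_of_gsid h X⟩
  · intro A P VK J _ _ _ _ _ _ _ _ F s K t φ hF hK hFi hKi hKlt hfor hφ hN hor
    have h := join_gsid_any hF hK hFi hKi hKlt hfor hφ hN hor
    exact ⟨h, fun _ _ _ X => sidorenko_of_gsid h X⟩
  · intro A P VB J _ _ _ _ _ _ _ _ F s B t φ hF hFi hFlt hz hfor hB hBi hB2 hφ hsur hN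
    have h := base_gsid hF hFi hFlt hz hfor hB hBi hB2 hφ hsur hN
    exact ⟨h, fun _ _ _ X => sidorenko_of_gsid h X⟩

end Vale.Agent.Results.P050.NetSubstitution
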